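import Vale.Agent.P218N.H.Surf

/-! Self-shrinkers in `ℝ³` all of whose ends are asymptotically conical or cylindrical. -/

open Set Real
open scoped RealInnerProductSpace ContDiff

namespace Vale.Agent.P218N

open Vale.Agent.P218.H313 Vale.Agent.P218N.H

/-- `S = {w = 0}` is a smooth properly embedded self-shrinker: `w` is smooth, `∇w ≠ 0` on `S`, and
`H = ⟨x, ν⟩ / 2` on `S` for `ν = ∇w / |∇w|` and `H = div_S ν`. -/
structure Shr (w : E3 → ℝ) : Prop where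
  smooth : ContDiff ℝ ∞ w
  ne : ∀ x, w x = 0 → grad w x ≠ 0
  eq : ∀ x, w x = 0 → tr (AW w x) = ⟪x, nuW w x⟫ / 2

/-- `h (s, θ)` is smooth, `2π`-periodic in `θ`, and tends to zero with all its derivatives,
uniformly in `θ`, as `s → ∞`. -/
structure Decays (h : ℝ × ℝ → ℝ) : Prop where
  smooth : ContDiff ℝ ∞ h
  per : ∀ s θ, h (s, θ + 2 * π) = h (s, θ)
  small : ∀ k : ℕ, ∀ ε > 0, ∃ s₀ : ℝ, ∀ p : ℝ × ℝ, s₀ ≤ p.1 → ‖iteratedFDeriv ℝ k h p‖ ≤ ε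

/-- `γ` is a smooth embedded closed curve in the unit sphere, of constant speed `l`, and `n` is a
smooth unit normal of the cone over `γ`. -/
structure Link (γ n : ℝ → E3) (l : ℝ) : Prop where
  smooth : ContDiff ℝ ∞ γ
  per : ∀ θ, γ (θ + 2 * π) = γ θ
  norm : ∀ θ, ‖γ θ‖ = 1
  pos : 0 < l
  speed : ∀ θ, ‖deriv γ θ‖ = l
  inj : InjOn γ (Ico 0 (2 * π))
  nsmooth : ContDiff ℝ ∞ n
  nper : ∀ θ, n (θ + 2 * π) = n θ
  nnorm : ∀ θ, ‖n θ‖ = 1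
  orth : ∀ θ, ⟪n θ, γ θ⟫ = 0
  orth' : ∀ θ, ⟪n θ, deriv γ θ⟫ = 0

/-- the normal graph of `r h (log r, θ)` over the cone `{r γ θ}`, at `r = e^s` -/
noncomputable def conePt (γ n : ℝ → E3) (h : ℝ × ℝ → ℝ) (p : ℝ × ℝ) : E3 :=
  exp p.1 • (γ p.2 + h p • n p.2)

/-- the normal graph of `√2 v (z, θ)` over the cylinder of radius `√2` with axis `Q e₃` -/
noncomputable def cylPt (Q : E3 ≃ₗᵢ[ℝ] E3) (v : ℝ × ℝ → ℝ) (p : ℝ × ℝ) : E3 :=
  Q !₂[√2 * (1 + v p) * cos p.2, √2 * (1 + v p) * sin p.2, p.1]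

/-- the direction of the axis -/
noncomputable def axis (Q : E3 ≃ₗᵢ[ℝ] E3) : E3 := Q !₂[0, 0, 1]

/-- Outside a ball, `{w = 0}` consists of `a` ends smoothly asymptotic to cones over disjoint
embedded curves and of `b` ends smoothly asymptotic to half cylinders with distinct axes. -/
structure EndData (w : E3 → ℝ) where
  a : ℕ
  b : ℕ
  γ : Fin a → ℝ → E3
  n : Fin a → ℝ → E3
  l : Fin a → ℝ
  h : Fin a → ℝ × ℝ → ℝ
  Q : Fin b → E3 ≃ₗᵢ[ℝ] E3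
  v : Fin b → ℝ × ℝ → ℝ
  s₀ : ℝ
  R : ℝ
  link : ∀ i, Link (γ i) (n i) (l i)
  hdec : ∀ i, Decays (h i)
  vdec : ∀ j, Decays (v j)
  disj : ∀ i i', i ≠ i' → ∀ θ θ', γ i θ ≠ γ i' θ'
  axes : ∀ j j', j ≠ j' → axis (Q j) ≠ axis (Q j')
  off : ∀ i j θ, γ i θ ≠ axis (Q j)
  cone_mem : ∀ i p, s₀ < p.1 → w (conePt (γ i) (n i) (h i) p) = 0
  cyl_mem : ∀ j p, s₀ < p.1 → w (cylPt (Q j) (v j) p) = 0
  cover : ∀ x, w x = 0 → R < ‖x‖ →
    (∃ i p, s₀ < p.1 ∧ x = conePt (γ i) (n i) (h i) p) ∨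
      ∃ j p, s₀ < p.1 ∧ x = cylPt (Q j) (v j) p

/-- a smooth properly embedded self-shrinker with finitely many ends (possibly none), each of them
asymptotically conical or cylindrical -/
def Ends (w : E3 → ℝ) : Prop := Shr w ∧ Nonempty (EndData w)

end Vale.Agent.P218N
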